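import Vale.Agent.P302.Main

namespace Vale.Agent.Results.P302.Gap

open Vale.Agent.P302

/-- The additive integrality gap of the configuration LP is unbounded; in particular the modified
integer round-up conjecture is false. -/
theorem result :
    (∀ c : ℕ, ∃ I : List ℚ, (∀ a ∈ I, 1 / 5 < a ∧ a ≤ 1) ∧ ⌈LP I⌉ + c < (OPT I : ℤ)) ∧
    ¬ ∀ I : List ℚ, (∀ a ∈ I, 0 < a ∧ a ≤ 1) → (OPT I : ℤ) ≤ ⌈LP I⌉ + 1 := by
  have h (c : ℕ) : ∃ I : List ℚ, (∀ a ∈ I, 1 / 5 < a ∧ a ≤ 1) ∧ ⌈LP I⌉ + c < (OPT I : ℤ) := by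
    obtain ⟨I, P, h1, h2, h3⟩ := gap c
    have : ⌈LP I⌉ ≤ (P : ℤ) := Int.ceil_le.2 (by exact_mod_cast h2)
    exact ⟨I, h1, by omega⟩
  refine ⟨h, fun h1 => ?_⟩
  obtain ⟨I, h2, h3⟩ := h 1
  exact h3.not_ge (h1 I fun a ha => ⟨by linarith [(h2 a ha).1], (h2 a ha).2⟩)

end Vale.Agent.Results.P302.Gap
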